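import Vale.Agent.P050.H936.Spec2
import Vale.Agent.P050.M18.Cyc4

/-!
The graph side: the number of homomorphisms of the graph whose edges are replaced by
series-parallel parts.
-/

set_option linter.unusedSectionVars false

namespace Vale.Agent.P050.H465.Sub2

open Finset Vale.Agent.P050.H148 Vale.Agent.P050.Cart Vale.Agent.P050.M18 Vale.Agent.P050.H546
open Vale.Agent.P050.H936

/-- an edge of a part is not a loop -/
theorem rel_ne {W : Type} : ∀ (p : SP) (x y : W) (f : p.In → W), x ≠ y → Function.Injective f →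
    (∀ i, f i ≠ x) → (∀ i, f i ≠ y) → ∀ a b, p.rel x y f a b → a ≠ b
  | .edge, x, y, f, hxy, hf, hx, hy, a, b, h => by
    obtain ⟨h1, h2⟩ := h
    rw [h1, h2]
    exact hxy
  | .ser p q, x, y, f, hxy, hf, hx, hy, a, b, h => by
    rcases h with h | h
    · refine rel_ne p x (f (.inl ())) (fun i => f (.inr (.inl i))) (Ne.symm (hx _)) ?_
        (fun i => hx _) ?_ a b h
      · intro i j hij
        exact Sum.inl.inj (Sum.inr.inj (hf hij))
      · intro i hi
        have := hf hi
        simp at this
    · refine rel_ne q (f (.inl ())) y (fun i => f (.inr (.inr i))) (hy _) ?_ ?_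
        (fun i => hy _) a b h
      · intro i j hij
        exact Sum.inr.inj (Sum.inr.inj (hf hij))
      · intro i hi
        have := hf hi
        simp at this
  | .par p q, x, y, f, hxy, hf, hx, hy, a, b, h => by
    rcases h with h | h
    · refine rel_ne p x y (fun i => f (.inl i)) hxy ?_ (fun i => hx _) (fun i => hy _) a b h
      intro i j hij
      exact Sum.inl.inj (hf hij)
    · refine rel_ne q x y (fun i => f (.inr i)) hxy ?_ (fun i => hx _) (fun i => hy _) a b h
      intro i j hij
      exact Sum.inr.inj (hf hij)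
  | .hang p q, x, y, f, hxy, hf, hx, hy, a, b, h => by
    rcases h with h | h
    · refine rel_ne p x y (fun i => f (.inr (.inl i))) hxy ?_ (fun i => hx _) (fun i => hy _) a b h
      intro i j hij
      exact Sum.inl.inj (Sum.inr.inj (hf hij))
    · refine rel_ne q x (f (.inl ())) (fun i => f (.inr (.inr i))) (Ne.symm (hx _)) ?_
        (fun i => hx _) ?_ a b h
      · intro i j hij
        exact Sum.inr.inj (Sum.inr.inj (hf hij))
      · intro i hi
        have := hf hi
        simp at this
  | .rev p, x, y, f, hxy, hf, hx, hy, a, b, h =>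
    rel_ne p y x f (Ne.symm hxy) hf hy hx a b h

/-- the condition on the images of the inner vertices -/
def Sat {X : Type} (G : SimpleGraph X) : (p : SP) → X → X → (p.In → X) → Prop
  | .edge, x, y, _ => G.Adj x y
  | .ser p q, x, y, f => Sat G p x (f (.inl ())) (fun i => f (.inr (.inl i))) ∧
      Sat G q (f (.inl ())) y (fun i => f (.inr (.inr i)))
  | .par p q, x, y, f => Sat G p x y (fun i => f (.inl i)) ∧ Sat G q x y (fun i => f (.inr i))
  | .hang p q, x, y, f => Sat G p x y (fun i => f (.inr (.inl i))) ∧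
      Sat G q x (f (.inl ())) (fun i => f (.inr (.inr i)))
  | .rev p, x, y, f => Sat G p y x f

theorem sat_iff {X W : Type} (G : SimpleGraph X) (φ : W → X) : ∀ (p : SP) (x y : W)
    (f : p.In → W), (∀ a b, p.rel x y f a b → G.Adj (φ a) (φ b)) ↔
      Sat G p (φ x) (φ y) (fun i => φ (f i))
  | .edge, x, y, f => by
    constructor
    · intro h
      exact h x y ⟨rfl, rfl⟩
    · rintro h a b ⟨h1, h2⟩
      rw [h1, h2]
      exact h
  | .ser p q, x, y, f => by
    have h1 := sat_iff G φ p x (f (.inl ())) (fun i => f (.inr (.inl i)))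
    have h2 := sat_iff G φ q (f (.inl ())) y (fun i => f (.inr (.inr i)))
    constructor
    · intro h
      exact ⟨h1.1 fun a b hab => h a b (Or.inl hab), h2.1 fun a b hab => h a b (Or.inr hab)⟩
    · rintro ⟨h3, h4⟩ a b (h | h)
      · exact h1.2 h3 a b h
      · exact h2.2 h4 a b h
  | .par p q, x, y, f => by
    have h1 := sat_iff G φ p x y (fun i => f (.inl i))
    have h2 := sat_iff G φ q x y (fun i => f (.inr i))
    constructor
    · intro h
      exact ⟨h1.1 fun a b hab => h a b (Or.inl hab), h2.1 fun a b hab => h a b (Or.inr hab)⟩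
    · rintro ⟨h3, h4⟩ a b (h | h)
      · exact h1.2 h3 a b h
      · exact h2.2 h4 a b h
  | .hang p q, x, y, f => by
    have h1 := sat_iff G φ p x y (fun i => f (.inr (.inl i)))
    have h2 := sat_iff G φ q x (f (.inl ())) (fun i => f (.inr (.inr i)))
    constructor
    · intro h
      exact ⟨h1.1 fun a b hab => h a b (Or.inl hab), h2.1 fun a b hab => h a b (Or.inr hab)⟩
    · rintro ⟨h3, h4⟩ a b (h | h)
      · exact h1.2 h3 a b h
      · exact h2.2 h4 a b h
  | .rev p, x, y, f => sat_iff G φ p y x f

section count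

variable {X : Type} [Fintype X] (G : SimpleGraph X)

/-- maps of the inner vertices -/
abbrev LL (p : SP) (x y : X) : Type := {f : p.In → X // Sat G p x y f}

/-- series -/
def serE (p q : SP) (x y : X) : LL G (.ser p q) x y ≃ Σ z : X, LL G p x z × LL G q z y where
  toFun f := ⟨f.1 (.inl ()), ⟨fun i => f.1 (.inr (.inl i)), f.2.1⟩,
    ⟨fun i => f.1 (.inr (.inr i)), f.2.2⟩⟩
  invFun w := ⟨fun i => match i with
    | .inl _ => w.1
    | .inr (.inl i) => w.2.1.1 i
    | .inr (.inr i) => w.2.2.1 i, w.2.1.2, w.2.2.2⟩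
  left_inv f := by
    apply Subtype.ext
    funext i
    rcases i with i | i | i <;> rfl
  right_inv w := rfl

/-- parallel -/
def parE (p q : SP) (x y : X) : LL G (.par p q) x y ≃ LL G p x y × LL G q x y where
  toFun f := ⟨⟨fun i => f.1 (.inl i), f.2.1⟩, ⟨fun i => f.1 (.inr i), f.2.2⟩⟩
  invFun w := ⟨fun i => match i with
    | .inl i => w.1.1 i
    | .inr i => w.2.1 i, w.1.2, w.2.2⟩
  left_inv f := by
    apply Subtype.ext
    funext i
    rcases i with i | i <;> rfl
  right_inv w := rfl

/-- pendant -/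
def hangE (p q : SP) (x y : X) : LL G (.hang p q) x y ≃ LL G p x y × Σ z : X, LL G q x z where
  toFun f := ⟨⟨fun i => f.1 (.inr (.inl i)), f.2.1⟩, ⟨f.1 (.inl ()),
    ⟨fun i => f.1 (.inr (.inr i)), f.2.2⟩⟩⟩
  invFun w := ⟨fun i => match i with
    | .inl _ => w.2.1
    | .inr (.inl i) => w.1.1 i
    | .inr (.inr i) => w.2.2.1 i, w.1.2, w.2.2.2⟩
  left_inv f := by
    apply Subtype.ext
    funext i
    rcases i with i | i | i <;> rfl
  right_inv w := rfl

theorem card_LL : ∀ (p : SP) (x y : X), (Nat.card (LL G p x y) : ℝ) = p.wt (adj G) x y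
  | .edge, x, y => by
    show _ = adj G x y
    unfold adj
    split_ifs with h
    · have : Nat.card (LL G .edge x y) = 1 := by
        rw [Nat.card_eq_one_iff_unique]
        refine ⟨⟨fun a b => Subtype.ext (funext fun i => i.elim)⟩, ⟨⟨fun i => i.elim, h⟩⟩⟩
      rw [this, Nat.cast_one]
    · have : Nat.card (LL G .edge x y) = 0 := by
        rw [Nat.card_eq_zero]
        exact Or.inl ⟨fun a => h a.2⟩
      rw [this, Nat.cast_zero]
  | .ser p q, x, y => by
    rw [Nat.card_congr (serE G p q x y), Nat.card_sigma]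
    push_cast
    refine Finset.sum_congr rfl fun z _ => ?_
    rw [Nat.card_prod, Nat.cast_mul, card_LL p, card_LL q]
  | .par p q, x, y => by
    rw [Nat.card_congr (parE G p q x y), Nat.card_prod, Nat.cast_mul, card_LL p, card_LL q]
    rfl
  | .hang p q, x, y => by
    rw [Nat.card_congr (hangE G p q x y), Nat.card_prod, Nat.card_sigma, Nat.cast_mul, card_LL p]
    push_cast
    show _ = p.wt (adj G) x y * ∑ z, q.wt (adj G) x z
    congr 1
    exact Finset.sum_congr rfl fun z _ => card_LL q x z
  | .rev p, x, y => card_LL p y x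

/-- the map of all vertices -/
def glue {V E : Type} (g : E → SP) (w1 : V → X) (w2 : ∀ e, (g e).In → X) :
    V ⊕ (Σ e : E, (g e).In) → X
  | .inl v => w1 v
  | .inr i => w2 i.1 i.2

/-- homomorphisms of the graph with replaced edges -/
def homE {V E : Type} (s t : E → V) (hst : ∀ e, s e ≠ t e) (g : E → SP) :
    (spGraph s t g →g G) ≃ Σ x : V → X, ∀ e, LL G (g e) (x (s e)) (x (t e)) where
  toFun φ := ⟨fun v => φ (.inl v), fun e => ⟨fun i => φ (.inr ⟨e, i⟩),
    (sat_iff G φ (g e) (Sum.inl (s e)) (Sum.inl (t e)) (fun i => Sum.inr ⟨e, i⟩)).1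
      fun a b hab => φ.map_rel (by
        refine (SimpleGraph.fromRel_adj _ a b).2 ⟨?_, Or.inl ⟨e, hab⟩⟩
        refine rel_ne (g e) _ _ _ ?_ ?_ (fun i => by simp) (fun i => by simp) a b hab
        · intro h
          exact hst e (Sum.inl_injective h)
        · intro i j hij
          have := Sum.inr_injective hij
          simpa using this)⟩⟩
  invFun w := ⟨glue g w.1 fun e => (w.2 e).1, by
      intro a b hab
      rcases ((SimpleGraph.fromRel_adj _ a b).1 hab).2 with ⟨e, h⟩ | ⟨e, h⟩
      · exact (sat_iff G (glue g w.1 fun e => (w.2 e).1) (g e) (Sum.inl (s e)) (Sum.inl (t e))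
          (fun i => Sum.inr ⟨e, i⟩)).2 (w.2 e).2 a b h
      · exact ((sat_iff G (glue g w.1 fun e => (w.2 e).1) (g e) (Sum.inl (s e)) (Sum.inl (t e))
          (fun i => Sum.inr ⟨e, i⟩)).2 (w.2 e).2 b a h).symm⟩
  left_inv φ := by
    ext v
    rcases v with v | i <;> rfl
  right_inv w := rfl

theorem card_hom {V E : Type} [Fintype V] [DecidableEq V] [Fintype E] (s t : E → V)
    (hst : ∀ e, s e ≠ t e) (g : E → SP) :
    (Nat.card (spGraph s t g →g G) : ℝ) = ng s t g (adj G) := by
  rw [Nat.card_congr (homE G s t hst g), Nat.card_sigma]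
  push_cast
  unfold ng
  refine Finset.sum_congr rfl fun x _ => ?_
  rw [Nat.card_pi, Nat.cast_prod]
  exact Finset.prod_congr rfl fun e _ => card_LL G _ _ _

end count

theorem card_In : ∀ p : SP, Nat.card p.In = p.num
  | .edge => by
    show Nat.card Empty = 0
    simp
  | .ser p q => by
    show Nat.card (Unit ⊕ (p.In ⊕ q.In)) = p.num + q.num + 1
    rw [Nat.card_sum, Nat.card_sum, card_In p, card_In q, Nat.card_unique, add_comm]
  | .par p q => by
    show Nat.card (p.In ⊕ q.In) = p.num + q.num
    rw [Nat.card_sum, card_In p, card_In q]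
  | .hang p q => by
    show Nat.card (Unit ⊕ (p.In ⊕ q.In)) = p.num + q.num + 1
    rw [Nat.card_sum, Nat.card_sum, card_In p, card_In q, Nat.card_unique, add_comm]
  | .rev p => card_In p

/-- [N2] -/
theorem num2 : NumStmt := fun p => by rw [← Nat.card_eq_fintype_card, card_In]

/-- [G2] -/
theorem graph2 : Graph2Stmt := by
  intro V E X _ _ _ _ _ s t hst g G
  have hn : (0 : ℝ) < Fintype.card X := by exact_mod_cast Fintype.card_pos
  have h1 : Nat.card (V ⊕ (Σ e : E, (g e).In)) = Fintype.card V + ∑ e, (g e).num := by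
    rw [Nat.card_sum, Nat.card_sigma, Nat.card_eq_fintype_card (α := V)]
    congr 1
    exact Finset.sum_congr rfl fun e _ => card_In _
  unfold homDensity
  rw [h1, Nat.card_eq_fintype_card (α := X), div_mul_cancel₀ _ (by positivity),
    card_hom G s t hst g]

end Vale.Agent.P050.H465.Sub2
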