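import Vale.Agent.P050.H226.Sub2.Card

/-!
The number of edges of `spGraph s t g`, parts of length 1 allowed.
-/

namespace Vale.Agent.P050.H465.Sub4

open Finset Vale.Agent.P050.H936 Vale.Agent.P050.H226.Sub2

variable {V E : Type} (s t : E → V) (g : E → SP)

/-- a common edge of two parts has terminals as its ends -/
theorem key {e e' : E} (hee : e ≠ e') (a : V ⊕ (Σ e : E, (g e).In))
    (h5 : Sp (Sum.inl (s e')) (Sum.inl (t e')) (fun i => Sum.inr ⟨e', i⟩) a)
    (h6 : Sp (Sum.inl (s e)) (Sum.inl (t e)) (fun i => Sum.inr ⟨e, i⟩) a) :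
    a = Sum.inl (s e) ∨ a = Sum.inl (t e) := by
  rcases h6 with h6 | h6 | ⟨i, h6⟩
  · exact Or.inl h6
  · exact Or.inr h6
  · exfalso
    rcases h5 with h5 | h5 | ⟨j, h5⟩
    · rw [h5] at h6
      exact Sum.inl_ne_inr h6
    · rw [h5] at h6
      exact Sum.inl_ne_inr h6
    · rw [h5] at h6
      have := Sum.inr.inj h6
      exact hee (congrArg Sigma.fst this).symm

/-- an unordered pair of different elements of a pair -/
theorem sy_eq {W : Type} {z : W × W} {x y : W} (hne : z.1 ≠ z.2) (h1 : z.1 = x ∨ z.1 = y)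
    (h2 : z.2 = x ∨ z.2 = y) : sy z = s(x, y) := by
  unfold sy
  rcases h1 with h1 | h1 <;> rcases h2 with h2 | h2
  · exact absurd (h1.trans h2.symm) hne
  · rw [h1, h2]
  · rw [h1, h2]
    exact Sym2.eq_swap
  · exact absurd (h1.trans h2.symm) hne

theorem pq_inj4 (hs : ∀ e, s e ≠ t e) (hO : ∀ e, (g e).Ok)
    (hd : ∀ e e', (g e).len ≤ 1 → (g e').len ≤ 1 → s(s e, t e) = s(s e', t e') → e = e')
    (d d' : Σ e, Ed (g e)) (h : sy (pq s t g d) = sy (pq s t g d')) : d = d' := by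
  obtain ⟨e, d⟩ := d
  obtain ⟨e', d'⟩ := d'
  by_cases hee : e = e'
  · subst hee
    rw [pr_inj (g e) _ _ _ (gd s t g hs e) (hO e) d d' h]
  · exfalso
    obtain ⟨h1, h2⟩ := sy_mem h (pr_mem (g e') _ _ _ d').1 (pr_mem (g e') _ _ _ d').2
    obtain ⟨h3, h4⟩ := pr_mem (g e) (Sum.inl (s e) : V ⊕ (Σ e : E, (g e).In))
      (Sum.inl (t e)) (fun i => Sum.inr ⟨e, i⟩) d
    obtain ⟨h1', h2'⟩ := sy_mem h.symm (pr_mem (g e) _ _ _ d).1 (pr_mem (g e) _ _ _ d).2
    obtain ⟨h3', h4'⟩ := pr_mem (g e') (Sum.inl (s e') : V ⊕ (Σ e : E, (g e).In))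
      (Sum.inl (t e')) (fun i => Sum.inr ⟨e', i⟩) d'
    have k1 := key s t g hee _ h1 h3
    have k2 := key s t g hee _ h2 h4
    have k1' := key s t g (Ne.symm hee) _ h1' h3'
    have k2' := key s t g (Ne.symm hee) _ h2' h4'
    have l1 : (g e).len ≤ 1 := by
      by_contra hl
      exact pr_len (g e) _ _ _ (gd s t g hs e) (hO e) (by omega) d ⟨k1, k2⟩
    have l2 : (g e').len ≤ 1 := by
      by_contra hl
      exact pr_len (g e') _ _ _ (gd s t g hs e') (hO e') (by omega) d' ⟨k1', k2'⟩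
    have m1 : sy (pr (g e) (Sum.inl (s e) : V ⊕ (Σ e : E, (g e).In)) (Sum.inl (t e))
        (fun i => Sum.inr ⟨e, i⟩) d) = s(Sum.inl (s e), Sum.inl (t e)) :=
      sy_eq (pr_ne (g e) _ _ _ (gd s t g hs e) d) k1 k2
    have m2 : sy (pr (g e') (Sum.inl (s e') : V ⊕ (Σ e : E, (g e).In)) (Sum.inl (t e'))
        (fun i => Sum.inr ⟨e', i⟩) d') = s(Sum.inl (s e'), Sum.inl (t e')) :=
      sy_eq (pr_ne (g e') _ _ _ (gd s t g hs e') d') k1' k2'
    have m3 : s((Sum.inl (s e) : V ⊕ (Σ e : E, (g e).In)), Sum.inl (t e)) =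
        s(Sum.inl (s e'), Sum.inl (t e')) := m1.symm.trans (h.trans m2)
    refine hee (hd e e' l1 l2 ?_)
    rcases Sym2.eq_iff.1 m3 with ⟨e1, e2⟩ | ⟨e1, e2⟩
    · rw [Sum.inl.inj e1, Sum.inl.inj e2]
    · rw [Sum.inl.inj e1, Sum.inl.inj e2]
      exact Sym2.eq_swap

/-- the edges of the graph -/
noncomputable def edges4 (hs : ∀ e, s e ≠ t e) (hO : ∀ e, (g e).Ok)
    (hd : ∀ e e', (g e).len ≤ 1 → (g e').len ≤ 1 → s(s e, t e) = s(s e', t e') → e = e') :
    (Σ e, Ed (g e)) ≃ (spGraph s t g).edgeSet :=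
  Equiv.ofBijective (fun d => ⟨sy (pq s t g d), by
    rw [sy, SimpleGraph.mem_edgeSet, adj_iff]
    exact ⟨pr_ne (g d.1) _ _ _ (gd s t g hs d.1) d.2, Or.inl ⟨d, rfl⟩⟩⟩) (by
    constructor
    · intro d d' h
      exact pq_inj4 s t g hs hO hd d d' (congrArg Subtype.val h)
    · rintro ⟨e, he⟩
      induction e using Sym2.ind with
      | h a b =>
        rw [SimpleGraph.mem_edgeSet, adj_iff] at he
        rcases he.2 with ⟨d, hd⟩ | ⟨d, hd⟩
        · refine ⟨d, Subtype.ext ?_⟩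
          show sy (pq s t g d) = s(a, b)
          rw [hd, sy]
        · refine ⟨d, Subtype.ext ?_⟩
          show sy (pq s t g d) = s(a, b)
          rw [hd, sy]
          exact Sym2.eq_swap)

/-- **the number of edges**, parts of length 1 allowed -/
theorem card4 [Fintype E] (hs : ∀ e, s e ≠ t e) (hO : ∀ e, (g e).Ok)
    (hd : ∀ e e', (g e).len ≤ 1 → (g e').len ≤ 1 → s(s e, t e) = s(s e', t e') → e = e') :
    Nat.card (spGraph s t g).edgeSet = ∑ e, (g e).size := by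
  rw [← Nat.card_congr (edges4 s t g hs hO hd), Nat.card_sigma]
  exact Finset.sum_congr rfl fun e _ => card_Ed (g e)

end Vale.Agent.P050.H465.Sub4
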