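import Vale.Agent.P050.H936.Spec
import Vale.Agent.P050.H222.G

/-!
The graph side: the number of homomorphisms of the graph with replaced edges.
-/

set_option linter.unusedSectionVars false

namespace Vale.Agent.P050.H465.Sub

open Finset Vale.Agent.P050.H148 Vale.Agent.P050.Cart Vale.Agent.P050.M18 Vale.Agent.P050.H546
open Vale.Agent.P050.H936

section rel

variable {V E X : Type} (s t : E → V) (κ : V → ℕ) (c : E → ℕ)

/-- the relation which generates `replaced` -/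
def rl (a b : Vert s t κ c) : Prop := match a, b with
    | .inl v, .inr (.inl i) => v = en s t i.1 ∧ (i.2 : ℕ) = 0
    | .inr (.inl i), .inr (.inl i') => i.1 = i'.1 ∧ (i.2 : ℕ) + 1 = i'.2
    | .inr (.inl i), .inr (.inr m) => i.1.1 = m.1 ∧ (i.2 : ℕ) = κ (en s t i.1)
    | _, _ => False

theorem rep_adj {a b : Vert s t κ c} : (replaced s t κ c).Adj a b ↔
    a ≠ b ∧ (rl s t κ c a b ∨ rl s t κ c b a) := Iff.rfl

theorem adj1 (h : E × Bool) :
    (replaced s t κ c).Adj (.inl (en s t h)) (.inr (.inl ⟨h, 0⟩)) :=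
  (rep_adj s t κ c).2 ⟨by simp, Or.inl ⟨rfl, rfl⟩⟩

theorem adj2 (h : E × Bool) (i : Fin (κ (en s t h))) :
    (replaced s t κ c).Adj (.inr (.inl ⟨h, i.castSucc⟩)) (.inr (.inl ⟨h, i.succ⟩)) :=
  (rep_adj s t κ c).2 ⟨by
    intro h1
    simp only [Sum.inr.injEq, Sum.inl.injEq, Sigma.mk.injEq, heq_eq_eq, true_and] at h1
    have h2 := congrArg Fin.val h1
    simp at h2, Or.inl ⟨rfl, by simp⟩⟩

theorem adj3 (e : E) (b : Bool) (m : Fin (c e + 1)) :
    (replaced s t κ c).Adj (.inr (.inl ⟨(e, b), Fin.last _⟩)) (.inr (.inr ⟨e, m⟩)) :=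
  (rep_adj s t κ c).2 ⟨by simp, Or.inl ⟨rfl, by simp⟩⟩

theorem of_rl (G : SimpleGraph X) (f : Vert s t κ c → X)
    (h1 : ∀ h, G.Adj (f (.inl (en s t h))) (f (.inr (.inl ⟨h, 0⟩))))
    (h2 : ∀ h (i : Fin (κ (en s t h))), G.Adj (f (.inr (.inl ⟨h, i.castSucc⟩)))
      (f (.inr (.inl ⟨h, i.succ⟩))))
    (h3 : ∀ e b (m : Fin (c e + 1)), G.Adj (f (.inr (.inl ⟨(e, b), Fin.last _⟩)))
      (f (.inr (.inr ⟨e, m⟩)))) (a b : Vert s t κ c) (h : rl s t κ c a b) :
    G.Adj (f a) (f b) := by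
  rcases a with v | ⟨⟨e, x⟩, i⟩ | ⟨e, m⟩ <;> rcases b with v' | ⟨⟨e', x'⟩, i'⟩ | ⟨e', m'⟩
  · exact False.elim h
  · obtain ⟨h4, h5⟩ := h
    have h6 : i' = 0 := Fin.ext h5
    subst h6
    simp only at h4
    subst h4
    exact h1 _
  · exact False.elim h
  · exact False.elim h
  · obtain ⟨h4, h5⟩ := h
    simp only at h4 h5
    cases h4
    have h6 : (i : ℕ) < κ (en s t (e, x)) := by
      have := i'.2
      omega
    have h7 : i = (⟨i, h6⟩ : Fin (κ (en s t (e, x)))).castSucc := Fin.ext rfl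
    have h8 : i' = (⟨i, h6⟩ : Fin (κ (en s t (e, x)))).succ := Fin.ext h5.symm
    rw [h7, h8]
    exact h2 _ _
  · obtain ⟨h4, h5⟩ := h
    simp only at h4 h5
    subst h4
    have h7 : i = Fin.last _ := Fin.ext h5
    rw [h7]
    exact h3 _ _ _
  · exact False.elim h
  · exact False.elim h
  · exact False.elim h

/-- the images of the inner vertices of an edge -/
abbrev Loc (X : Type) (i j c : ℕ) : Type :=
  ((Fin (i + 1) → X) × (Fin (j + 1) → X)) × (Fin (c + 1) → X)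

/-- the condition on them -/
def LOk (G : SimpleGraph X) {i j c : ℕ} (x y : X) (w : Loc X i j c) : Prop :=
  (G.Adj x (w.1.1 0) ∧ ∀ k : Fin i, G.Adj (w.1.1 k.castSucc) (w.1.1 k.succ)) ∧
  (G.Adj y (w.1.2 0) ∧ ∀ k : Fin j, G.Adj (w.1.2 k.castSucc) (w.1.2 k.succ)) ∧
  ∀ m : Fin (c + 1), G.Adj (w.1.1 (Fin.last i)) (w.2 m) ∧ G.Adj (w.1.2 (Fin.last j)) (w.2 m)

/-- the map of all vertices -/
def glue (w : (V → X) × (∀ e, Loc X (κ (s e)) (κ (t e)) (c e))) : Vert s t κ c → X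
  | .inl v => w.1 v
  | .inr (.inl ⟨(e, false), i⟩) => (w.2 e).1.1 i
  | .inr (.inl ⟨(e, true), i⟩) => (w.2 e).1.2 i
  | .inr (.inr ⟨e, m⟩) => (w.2 e).2 m

/-- homomorphisms of the graph with replaced edges -/
def homE (G : SimpleGraph X) : (replaced s t κ c →g G) ≃
    {w : (V → X) × (∀ e, Loc X (κ (s e)) (κ (t e)) (c e)) //
      ∀ e, LOk G (w.1 (s e)) (w.1 (t e)) (w.2 e)} where
  toFun φ := ⟨(fun v => φ (.inl v), fun e => ((fun i => φ (.inr (.inl ⟨(e, false), i⟩)),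
      fun i => φ (.inr (.inl ⟨(e, true), i⟩))), fun m => φ (.inr (.inr ⟨e, m⟩)))), fun e =>
    ⟨⟨φ.map_rel (adj1 s t κ c (e, false)), fun k => φ.map_rel (adj2 s t κ c (e, false) k)⟩,
      ⟨φ.map_rel (adj1 s t κ c (e, true)), fun k => φ.map_rel (adj2 s t κ c (e, true) k)⟩,
      fun m => ⟨φ.map_rel (adj3 s t κ c e false m), φ.map_rel (adj3 s t κ c e true m)⟩⟩⟩
  invFun w := ⟨glue s t κ c w.1, by
    intro a b hab
    have h1 : ∀ h, G.Adj (glue s t κ c w.1 (.inl (en s t h)))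
        (glue s t κ c w.1 (.inr (.inl ⟨h, 0⟩))) := by
      rintro ⟨e, b⟩
      cases b
      · exact (w.2 e).1.1
      · exact (w.2 e).2.1.1
    have h2 : ∀ h (i : Fin (κ (en s t h))),
        G.Adj (glue s t κ c w.1 (.inr (.inl ⟨h, i.castSucc⟩)))
        (glue s t κ c w.1 (.inr (.inl ⟨h, i.succ⟩))) := by
      rintro ⟨e, b⟩
      cases b
      · exact (w.2 e).1.2
      · exact (w.2 e).2.1.2
    have h3 : ∀ e b (m : Fin (c e + 1)),
        G.Adj (glue s t κ c w.1 (.inr (.inl ⟨(e, b), Fin.last _⟩)))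
        (glue s t κ c w.1 (.inr (.inr ⟨e, m⟩))) := by
      intro e b m
      cases b
      · exact ((w.2 e).2.2 m).1
      · exact ((w.2 e).2.2 m).2
    rcases ((rep_adj s t κ c).1 hab).2 with h | h
    · exact of_rl s t κ c G _ h1 h2 h3 _ _ h
    · exact (of_rl s t κ c G _ h1 h2 h3 _ _ h).symm⟩
  left_inv φ := by
    ext v
    rcases v with v | ⟨⟨e, b⟩, i⟩ | ⟨e, m⟩
    · rfl
    · cases b <;> rfl
    · rfl
  right_inv w := by
    apply Subtype.ext
    rfl

end rel

section count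

variable {X : Type} [Fintype X]

theorem path_sum [DecidableEq X] (A : X → X → ℝ) (i : ℕ) (x : X) (F : X → ℝ) :
    ∑ p : Fin (i + 1) → X, (A x (p 0) * ∏ k : Fin i, A (p k.castSucc) (p k.succ)) *
      F (p (Fin.last i)) = ∑ a, zp A (i + 1) x a * F a := by
  have h1 := H222.zp_path A i fun a b => A x a * F b
  have h2 : ∀ p : Fin (i + 1) → X,
      (A x (p 0) * ∏ k : Fin i, A (p k.castSucc) (p k.succ)) * F (p (Fin.last i)) =
      (∏ k : Fin i, A (p k.castSucc) (p k.succ)) * (A x (p 0) * F (p (Fin.last i))) :=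
    fun p => by ring
  rw [Finset.sum_congr rfl fun p _ => h2 p, h1, Finset.sum_comm]
  refine Finset.sum_congr rfl fun a _ => ?_
  rw [add_comm i 1, H222.zp_add, Finset.sum_mul]
  refine Finset.sum_congr rfl fun b _ => ?_
  rw [zp_one]
  ring

theorem zp_two' [DecidableEq X] (A : X → X → ℝ) (a b : X) :
    zp A 2 a b = ∑ z, A a z * A z b := by
  show ∑ z, zp A 1 a z * A z b = _
  exact Finset.sum_congr rfl fun z _ => by rw [zp_one]

theorem ind3 (P1 P2 P3 P4 P5 : Prop) [Decidable P1] [Decidable P2] [Decidable P3]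
    [Decidable P4] [Decidable P5] [Decidable ((P1 ∧ P2) ∧ (P3 ∧ P4) ∧ P5)] :
    (if (P1 ∧ P2) ∧ (P3 ∧ P4) ∧ P5 then (1 : ℝ) else 0) =
      ((if P1 then 1 else 0) * (if P2 then 1 else 0)) *
        (((if P3 then 1 else 0) * (if P4 then 1 else 0)) * (if P5 then 1 else 0)) := by
  by_cases a : P1 <;> by_cases b1 : P2 <;> by_cases b2 : P3 <;> by_cases b3 : P4 <;>
    by_cases b4 : P5 <;> simp [a, b1, b2, b3, b4]

theorem prod_ind {ι : Type} [Fintype ι] (p : ι → Prop) [DecidablePred p]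
    [Decidable (∀ i, p i)] :
    ∏ i, (if p i then (1 : ℝ) else 0) = if ∀ i, p i then 1 else 0 := by
  by_cases h : ∀ i, p i
  · rw [if_pos h]
    exact Finset.prod_eq_one fun i _ => if_pos (h i)
  · rw [if_neg h]
    obtain ⟨i, hi⟩ := not_forall.1 h
    exact Finset.prod_eq_zero (Finset.mem_univ i) (if_neg hi)

open Classical in
theorem adj_ind (G : SimpleGraph X) (a b : X) : adj G a b = if G.Adj a b then 1 else 0 := by
  unfold adj
  congr

open Classical in
theorem lok_ind (G : SimpleGraph X) {i j c : ℕ} (x y : X) (w : Loc X i j c) :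
    (if LOk G x y w then (1 : ℝ) else 0) =
      (adj G x (w.1.1 0) * ∏ k : Fin i, adj G (w.1.1 k.castSucc) (w.1.1 k.succ)) *
        ((adj G y (w.1.2 0) * ∏ k : Fin j, adj G (w.1.2 k.castSucc) (w.1.2 k.succ)) *
          ∏ m, (adj G (w.1.1 (Fin.last i)) (w.2 m) * adj G (w.1.2 (Fin.last j)) (w.2 m))) := by
  have h1 : ∀ m, adj G (w.1.1 (Fin.last i)) (w.2 m) * adj G (w.1.2 (Fin.last j)) (w.2 m) =
      if G.Adj (w.1.1 (Fin.last i)) (w.2 m) ∧ G.Adj (w.1.2 (Fin.last j)) (w.2 m) then 1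
        else 0 := by
    intro m
    rw [adj_ind, adj_ind]
    by_cases a : G.Adj (w.1.1 (Fin.last i)) (w.2 m) <;>
      by_cases b : G.Adj (w.1.2 (Fin.last j)) (w.2 m) <;> simp [a, b]
  rw [Finset.prod_congr rfl fun m _ => h1 m]
  simp only [adj_ind]
  rw [prod_ind, prod_ind, prod_ind]
  convert ind3 (G.Adj x (w.1.1 0)) (∀ k : Fin i, G.Adj (w.1.1 k.castSucc) (w.1.1 k.succ))
    (G.Adj y (w.1.2 0)) (∀ k : Fin j, G.Adj (w.1.2 k.castSucc) (w.1.2 k.succ))
    (∀ m, G.Adj (w.1.1 (Fin.last i)) (w.2 m) ∧ G.Adj (w.1.2 (Fin.last j)) (w.2 m))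
  exact Iff.rfl

open Classical in
theorem loc_sum (G : SimpleGraph X) (i j c : ℕ) (x y : X) :
    ∑ w : Loc X i j c, (if LOk G x y w then (1 : ℝ) else 0) = wt (adj G) i j c x y := by
  rw [Finset.sum_congr rfl fun w _ => lok_ind G x y w]
  rw [Fintype.sum_prod_type, Fintype.sum_prod_type]
  have h1 : ∀ (p : Fin (i + 1) → X) (p' : Fin (j + 1) → X),
      ∑ q : Fin (c + 1) → X,
        (adj G x (p 0) * ∏ k : Fin i, adj G (p k.castSucc) (p k.succ)) *
        ((adj G y (p' 0) * ∏ k : Fin j, adj G (p' k.castSucc) (p' k.succ)) *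
          ∏ m, (adj G (p (Fin.last i)) (q m) * adj G (p' (Fin.last j)) (q m))) =
      (adj G x (p 0) * ∏ k : Fin i, adj G (p k.castSucc) (p k.succ)) *
        ((adj G y (p' 0) * ∏ k : Fin j, adj G (p' k.castSucc) (p' k.succ)) *
          zp (adj G) 2 (p (Fin.last i)) (p' (Fin.last j)) ^ (c + 1)) := by
    intro p p'
    rw [← Finset.mul_sum, ← Finset.mul_sum, zp_two', Fintype.sum_pow]
    congr 2
    refine Finset.sum_congr rfl fun q _ => Finset.prod_congr rfl fun m _ => ?_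
    rw [adj_symm G (p' (Fin.last j)) (q m)]
  simp only [h1]
  have h2 : ∀ p : Fin (i + 1) → X, ∑ p' : Fin (j + 1) → X,
      (adj G x (p 0) * ∏ k : Fin i, adj G (p k.castSucc) (p k.succ)) *
        ((adj G y (p' 0) * ∏ k : Fin j, adj G (p' k.castSucc) (p' k.succ)) *
          zp (adj G) 2 (p (Fin.last i)) (p' (Fin.last j)) ^ (c + 1)) =
      (adj G x (p 0) * ∏ k : Fin i, adj G (p k.castSucc) (p k.succ)) *
        ∑ b, zp (adj G) (j + 1) y b * zp (adj G) 2 (p (Fin.last i)) b ^ (c + 1) := by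
    intro p
    rw [← Finset.mul_sum,
      path_sum (adj G) j y fun b => zp (adj G) 2 (p (Fin.last i)) b ^ (c + 1)]
  simp only [h2]
  rw [path_sum (adj G) i x fun a => ∑ b, zp (adj G) (j + 1) y b * zp (adj G) 2 a b ^ (c + 1)]
  unfold wt
  refine Finset.sum_congr rfl fun a _ => ?_
  rw [Finset.mul_sum]
  exact Finset.sum_congr rfl fun b _ => by ring

open Classical in
theorem card_hom {V E : Type} [Fintype V] [DecidableEq V] [Fintype E] (s t : E → V) (κ : V → ℕ) (c : E → ℕ)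
    (G : SimpleGraph X) : (Nat.card (replaced s t κ c →g G) : ℝ) =
      ∑ x : V → X, ∏ e, wt (adj G) (κ (s e)) (κ (t e)) (c e) (x (s e)) (x (t e)) := by
  rw [Nat.card_congr (homE s t κ c G), Nat.card_eq_fintype_card, Fintype.card_subtype,
    card_eq_sum_ones, sum_filter, Fintype.sum_prod_type]
  push_cast
  refine Finset.sum_congr rfl fun x _ => ?_
  rw [Finset.prod_congr rfl fun e _ => (loc_sum G (κ (s e)) (κ (t e)) (c e) (x (s e))
    (x (t e))).symm]
  rw [Finset.prod_univ_sum, Fintype.piFinset_univ]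
  refine Finset.sum_congr rfl fun w _ => ?_
  exact (prod_ind _).symm

end count

/-- the number of vertices -/
theorem card_vert {V E : Type} [Fintype V] [Fintype E] (s t : E → V) (κ : V → ℕ) (c : E → ℕ) :
    Nat.card (Vert s t κ c) =
      Fintype.card V + ∑ e, (κ (s e) + κ (t e) + c e + 3) := by
  rw [Nat.card_eq_fintype_card, Fintype.card_sum, Fintype.card_sum, Fintype.card_sigma,
    Fintype.card_sigma]
  simp only [Fintype.card_fin]
  rw [Fintype.sum_prod_type, ← Finset.sum_add_distrib]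
  congr 1
  refine Finset.sum_congr rfl fun e _ => ?_
  rw [Fintype.sum_bool]
  show κ (t e) + 1 + (κ (s e) + 1) + (c e + 1) = _
  ring

/-- [S4] -/
theorem graph : H936.GraphStmt := by
  intro V E X _ _ _ _ _ _ s t κ c G
  have hn : (0 : ℝ) < Fintype.card X := by exact_mod_cast Fintype.card_pos
  unfold homDensity
  rw [card_vert, Nat.card_eq_fintype_card (α := X), div_mul_cancel₀ _ (by positivity),
    card_hom]
  unfold nr
  refine Finset.sum_congr rfl fun x _ => Finset.prod_congr rfl fun e _ => ?_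
  congr!

end Vale.Agent.P050.H465.Sub
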